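import Vale.Agent.P235.H606.PDefs
import Vale.Agent.P235.ST.H626.Sums

/-!
# Graphs without a complete minor are closed under gluing along edges (helper492)

Hence, if `c₁` is bounded on the connected graphs without a `K_n` minor, these graphs are
`EdgeIso` with the same constant.
-/

set_option autoImplicit false

namespace Vale.Agent.P235.H492

open SimpleGraph hiding Free
open Vale.Agent.P235 Vale.Agent.P235.H134 Vale.Agent.P235.H606

section side

variable {V VA VB : Type} {G : SimpleGraph V} {GA : SimpleGraph VA} {GB : SimpleGraph VB}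
  {iA : VA → V} {iB : VB → V} {sA tA : VA} {sB tB : VB}

theorem mem_pair (hg : ST.H421.Glued G GA GB iA iB sA tA sB tB) {a : VA} {p : VB}
    (h : iB p = iA a) : a = sA ∨ a = tA := by
  rcases hg.inter a p h.symm with h | h
  · exact Or.inl h.1
  · exact Or.inr h.1

theorem pair_adj (hg : ST.H421.Glued G GA GB iA iB sA tA sB tB) {a b : VA}
    (ha : a = sA ∨ a = tA) (hb : b = sA ∨ b = tA) : a = b ∨ GA.Adj a b := by
  rcases ha with rfl | rfl <;> rcases hb with rfl | rfl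
  · exact Or.inl rfl
  · exact Or.inr hg.stA
  · exact Or.inr hg.stA.symm
  · exact Or.inl rfl

/-- `a` represents `v` on the side `A` -/
def Rep (iA : VA → V) (sA tA : VA) (v : V) (a : VA) : Prop :=
  iA a = v ∨ ((¬ ∃ a', iA a' = v) ∧ (a = sA ∨ a = tA))

theorem rep_step (hg : ST.H421.Glued G GA GB iA iB sA tA sB tB) {x z : V} (hxz : G.Adj x z)
    {a : VA} (ha : Rep iA sA tA x a) :
    (∃ b, iA b = z ∧ (a = b ∨ GA.Adj a b)) ∨ ((¬ ∃ a', iA a' = z) ∧ (a = sA ∨ a = tA)) := by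
  by_cases hz : ∃ b, iA b = z
  · obtain ⟨b, hb⟩ := hz
    refine Or.inl ⟨b, hb, ?_⟩
    rcases hg.adj x z hxz with ⟨p, q, hpq, hp, hq⟩ | ⟨p, q, hpq, hp, hq⟩
    · rcases ha with ha | ⟨ha, -⟩
      · have h1 : p = a := hg.injA (hp.trans ha.symm)
        have h2 : q = b := hg.injA (hq.trans hb.symm)
        subst h1 h2
        exact Or.inr hpq
      · exact absurd ⟨p, hp⟩ ha
    · have h2 := mem_pair hg (hq.trans hb.symm)
      rcases ha with ha | ⟨-, ha⟩
      · exact pair_adj hg (mem_pair hg (hp.trans ha.symm)) h2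
      · exact pair_adj hg ha h2
  · refine Or.inr ⟨hz, ?_⟩
    rcases ha with ha | ⟨-, ha⟩
    · rcases hg.adj x z hxz with ⟨p, q, hpq, hp, hq⟩ | ⟨p, q, hpq, hp, hq⟩
      · exact absurd ⟨q, hq⟩ hz
      · exact mem_pair hg (hp.trans ha.symm)
    · exact ha

theorem walk_rep (hg : ST.H421.Glued G GA GB iA iB sA tA sB tB) {U : Set V} {x y : U}
    (w : (G.induce U).Walk x y) : ∀ a (ha : iA a ∈ U), Rep iA sA tA x a →
      ∃ b, ∃ hb : iA b ∈ U, Rep iA sA tA y b ∧
        (GA.induce {a | iA a ∈ U}).Reachable ⟨a, ha⟩ ⟨b, hb⟩ := by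
  induction w with
  | nil => exact fun a ha hr => ⟨a, ha, hr, Reachable.refl _⟩
  | @cons x z y hxz w ih =>
    intro a ha hr
    rcases rep_step hg (show G.Adj x.1 z.1 from hxz) hr with ⟨b, hb, hab⟩ | ⟨hz, hs⟩
    · have hbU : iA b ∈ U := by rw [hb]; exact z.2
      obtain ⟨c, hc, h1, h2⟩ := ih b hbU (Or.inl hb)
      refine ⟨c, hc, h1, Reachable.trans ?_ h2⟩
      rcases hab with rfl | hab
      · exact Reachable.refl _
      · exact Adj.reachable (show (GA.induce {a | iA a ∈ U}).Adj ⟨a, ha⟩ ⟨b, hbU⟩ from hab)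
    · obtain ⟨c, hc, h1, h2⟩ := ih a ha (Or.inr ⟨hz, hs⟩)
      exact ⟨c, hc, h1, h2⟩

theorem trace_connected (hg : ST.H421.Glued G GA GB iA iB sA tA sB tB) {U : Set V}
    (hU : (G.induce U).Connected) (hne : ∃ a, iA a ∈ U) :
    (GA.induce {a | iA a ∈ U}).Connected := by
  obtain ⟨a0, ha0⟩ := hne
  have : Nonempty ({a | iA a ∈ U} : Set VA) := ⟨⟨a0, ha0⟩⟩
  refine ⟨fun ⟨a, ha⟩ ⟨b, hb⟩ => ?_⟩
  obtain ⟨w⟩ := hU.preconnected ⟨iA a, ha⟩ ⟨iA b, hb⟩
  obtain ⟨c, hc, h1, h2⟩ := walk_rep hg w a ha (Or.inl rfl)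
  have hcb : c = b := by
    rcases h1 with h1 | ⟨h1, -⟩
    · exact hg.injA h1
    · exact absurd ⟨b, rfl⟩ h1
  subst hcb
  exact h2

/-- a connected set which meets the side `A` and the side `B` contains one of the two common
vertices -/
theorem touch (hg : ST.H421.Glued G GA GB iA iB sA tA sB tB) {U : Set V}
    (hU : (G.induce U).Connected) (hne : ∃ a, iA a ∈ U) {p : VB} (hp : iB p ∈ U) :
    ∃ a, iA a ∈ U ∧ (a = sA ∨ a = tA) := by
  obtain ⟨a0, ha0⟩ := hne
  obtain ⟨w⟩ := hU.preconnected ⟨iA a0, ha0⟩ ⟨iB p, hp⟩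
  obtain ⟨c, hc, h1, -⟩ := walk_rep hg w a0 ha0 (Or.inl rfl)
  rcases h1 with h1 | ⟨-, h1⟩
  · exact ⟨c, hc, mem_pair hg h1.symm⟩
  · exact ⟨c, hc, h1⟩

/-- all branch sets of a complete minor meet the side `A`: a complete minor of the side `A` -/
theorem minor_side (hg : ST.H421.Glued G GA GB iA iB sA tA sB tB) {ι : Type} {μ : ι → Set V}
    (m1 : ∀ i, (G.induce (μ i)).Connected) (m2 : ∀ i j, i ≠ j → Disjoint (μ i) (μ j))
    (m3 : ∀ i j, (⊤ : SimpleGraph ι).Adj i j → ∃ x ∈ μ i, ∃ y ∈ μ j, G.Adj x y)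
    (hne : ∀ i, ∃ a, iA a ∈ μ i) : IsMinor (⊤ : SimpleGraph ι) GA := by
  refine ⟨fun i => {a | iA a ∈ μ i}, fun i => trace_connected hg (m1 i) (hne i), ?_, ?_⟩
  · intro i j hij
    rw [Set.disjoint_left]
    intro a ha hb
    exact Set.disjoint_left.1 (m2 i j hij) ha hb
  · intro i j hij
    obtain ⟨x, hx, y, hy, hxy⟩ := m3 i j hij
    have hne' : i ≠ j := (top_adj _ _).1 hij
    rcases hg.adj x y hxy with ⟨a, b, hab, rfl, rfl⟩ | ⟨p, q, hpq, rfl, rfl⟩
    · exact ⟨a, hx, b, hy, hab⟩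
    · obtain ⟨a, ha, ha'⟩ := touch hg (m1 i) (hne i) hx
      obtain ⟨b, hb, hb'⟩ := touch hg (m1 j) (hne j) hy
      rcases pair_adj hg ha' hb' with rfl | hab
      · exact absurd hb (Set.disjoint_left.1 (m2 i j hne') ha)
      · exact ⟨a, ha, b, hb, hab⟩

/-- the two sides can be exchanged -/
theorem glued_symm (hg : ST.H421.Glued G GA GB iA iB sA tA sB tB) :
    ST.H421.Glued G GB GA iB iA sB tB sA tA where
  injA := hg.injB
  injB := hg.injA
  adjA := hg.adjB
  adjB := hg.adjA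
  adj u v h := (hg.adj u v h).symm
  cov v := (hg.cov v).symm
  inter a b h := by
    rcases hg.inter b a h.symm with ⟨h1, h2⟩ | ⟨h1, h2⟩
    · exact Or.inl ⟨h2, h1⟩
    · exact Or.inr ⟨h2, h1⟩
  hs := hg.hs.symm
  ht := hg.ht.symm
  stA := hg.stB
  stB := hg.stA

/-- a complete minor of a graph glued along an edge is a minor of one of the two sides -/
theorem minor_glued (hg : ST.H421.Glued G GA GB iA iB sA tA sB tB) {ι : Type}
    (h : IsMinor (⊤ : SimpleGraph ι) G) :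
    IsMinor (⊤ : SimpleGraph ι) GA ∨ IsMinor (⊤ : SimpleGraph ι) GB := by
  obtain ⟨μ, m1, m2, m3⟩ := h
  by_cases hA : ∀ i, ∃ a, iA a ∈ μ i
  · exact Or.inl (minor_side hg m1 m2 m3 hA)
  · by_cases hB : ∀ i, ∃ b, iB b ∈ μ i
    · exact Or.inr (minor_side (glued_symm hg) m1 m2 m3 hB)
    · exfalso
      push Not at hA hB
      obtain ⟨i, hi⟩ := hA
      obtain ⟨j, hj⟩ := hB
      have hij : i ≠ j := by
        rintro rfl
        obtain ⟨⟨x, hx⟩⟩ := (m1 i).nonempty
        rcases hg.cov x with ⟨a, rfl⟩ | ⟨b, rfl⟩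
        · exact hi a hx
        · exact hj b hx
      obtain ⟨x, hx, y, hy, hxy⟩ := m3 i j ((top_adj _ _).2 hij)
      rcases hg.adj x y hxy with ⟨a, b, hab, rfl, rfl⟩ | ⟨p, q, hpq, rfl, rfl⟩
      · exact hi a hx
      · exact hj q hy

end side

/-- the connected graphs without a complete minor on `ι` are closed under gluing along edges -/
theorem glueClosed_top (ι : Type) : ST.H626.GlueClosed
    fun (V : Type) (G : SimpleGraph V) => G.Connected ∧ ¬ IsMinor (⊤ : SimpleGraph ι) G := by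
  rintro V W _ _ G H a b s t hab hst ⟨hG, hG'⟩ ⟨hH, hH'⟩
  refine ⟨ST.H626.gg_connected hG hH hab hst, fun h => ?_⟩
  rcases minor_glued (ST.H626.glued hab hst) h with h | h
  · exact hG' h
  · exact hH' h

/-- bounded `c₁` on the graphs without a `K_n` minor gives `EdgeIso` on them -/
theorem edgeIso_top {ι : Type} {C : ℝ} (hC : 1 ≤ C) (h : Free (⊤ : SimpleGraph ι) C)
    (V : Type) [Finite V] (G : SimpleGraph V) (hG : G.Connected)
    (hno : ¬ IsMinor (⊤ : SimpleGraph ι) G) : EdgeIso G C :=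
  ST.H626.edgeIso_of_glueClosed (glueClosed_top ι) (fun _ _ h => h.1) hC
    (fun V _ G hG => h V G hG.1 hG.2) V G ⟨hG, hno⟩

end Vale.Agent.P235.H492
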