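import Vale.Agent.P235.H492.GlueTop
import Vale.Agent.P235.K5.H56.Trees

/-!
# Edge sums of planar graphs, graphs without a `K₅` minor, and thin graphs (helper492)

`K5FreeStmt` (bounded `c₁` without a `K₅` minor) gives `EdgeIso`, and the same for the graphs
every 3-connected minor of which is planar, or thin, or without a `K₅` minor.
-/

set_option autoImplicit false

namespace Vale.Agent.P235.H492

open SimpleGraph hiding Free
open Vale.Agent.P235 Vale.Agent.P235.H134 Vale.Agent.P235.H606 Vale.Agent.P235.H56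

/-- edge sums of planar graphs, thin graphs and the graphs of a class `R` which is `EdgeIso` -/
theorem sums_of {R : ∀ (V : Type), SimpleGraph V → Prop} {C : ℝ} (hC : 1 ≤ C)
    (hR : ∀ (V : Type) [Finite V] (G : SimpleGraph V), G.Connected → R V G → EdgeIso G C) :
    ∃ D : ℝ, 1 ≤ D ∧
    (∀ (w t : ℕ) (V : Type) [Finite V] (G : SimpleGraph V), G.Connected →
      EdgeSumOf (fun W H => ST.H626.PlanePiece w t W H ∨ R W H) G →
        EdgeIso G (D * (w + Real.log (t + 2))) ∧ DistortionLE G (D * (w + Real.log (t + 2)))) ∧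
    (∀ k w t : ℕ, ∃ K : ℝ, ∀ (V : Type) [Finite V] (G : SimpleGraph V), G.Connected →
      EdgeSumOf (fun W H => ST.H945.PlaneTw k w t W H ∨ R W H) G →
        EdgeIso G K ∧ DistortionLE G K) := by
  obtain ⟨C0, hC0, -, -, h3, h4, -⟩ := ST.H945.all6
  refine ⟨24000 * (C0 + C), by linarith, ?_, ?_⟩
  · intro w t V _ G hG hE
    have hw : (0 : ℝ) ≤ w := Nat.cast_nonneg w
    have hlt : Real.log 2 ≤ Real.log ((t : ℝ) + 2) :=
      Real.log_le_log (by norm_num) (by have : (0 : ℝ) ≤ t := Nat.cast_nonneg t; linarith)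
    have hlog2 : (1 / 2 : ℝ) < Real.log 2 := by have := Real.log_two_gt_d9; linarith
    set L : ℝ := w + Real.log ((t : ℝ) + 2) with hL
    have hL2 : 1 / 2 ≤ L := by linarith
    have h1 : C0 * L ≤ 2 * (C0 + C) * L :=
      mul_le_mul_of_nonneg_right (by linarith) (by linarith)
    have h2 : C ≤ 2 * (C0 + C) * L := by
      have := mul_le_mul_of_nonneg_left hL2 (by linarith : (0 : ℝ) ≤ 2 * (C0 + C))
      linarith
    have hP : ∀ (W : Type) [Finite W] (H : SimpleGraph W), H.Connected →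
        (ST.H626.PlanePiece w t W H ∨ R W H) → EdgeIso H (2 * (C0 + C) * L) := by
      rintro W _ H hH (hP | hP)
      · exact ST.H626.EdgeIso.mono' (h3 w t W H hH (EdgeSumOf.base hP)).1 h1
      · exact ST.H626.EdgeIso.mono' (hR W H hH hP) h2
    have h := edgeSum_edgeIso (fun W H => ST.H626.PlanePiece w t W H ∨ R W H)
      (hC.trans h2) hP V G hG hE
    have e : 12000 * (2 * (C0 + C) * L) = 24000 * (C0 + C) * L := by ring
    rwa [e] at h
  · intro k w t
    obtain ⟨K, hK⟩ := h4 k w t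
    have hP : ∀ (W : Type) [Finite W] (H : SimpleGraph W), H.Connected →
        (ST.H945.PlaneTw k w t W H ∨ R W H) → EdgeIso H (max K C) := by
      rintro W _ H hH (hP | hP)
      · exact ST.H626.EdgeIso.mono' (hK W H hH (EdgeSumOf.base hP)).1 (le_max_left _ _)
      · exact ST.H626.EdgeIso.mono' (hR W H hH hP) (le_max_right _ _)
    exact ⟨12000 * max K C, fun V _ G hG hE => edgeSum_edgeIso
      (fun W H => ST.H945.PlaneTw k w t W H ∨ R W H) (hC.trans (le_max_right _ _)) hP V G hG hE⟩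

/-- graphs every 3-connected minor of which is planar, or thin, or without a `K₅` minor -/
theorem k5_mix (hK5 : K5.H56.K5FreeStmt) : ∃ C : ℝ, 1 ≤ C ∧
    (∀ (V : Type) [Finite V] (G : SimpleGraph V), G.Connected →
      ¬ IsMinor (⊤ : SimpleGraph (Fin 5)) G → EdgeIso G C ∧ DistortionLE G C) ∧
    (∀ (w t : ℕ) (V : Type) [Finite V] (G : SimpleGraph V), G.Connected →
      (∀ (W : Type) [Finite W] (H : SimpleGraph W), H.Connected → Conn3 H → IsMinor H G →
        ST.H626.PlanePiece w t W H ∨ ¬ IsMinor (⊤ : SimpleGraph (Fin 5)) H) →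
        EdgeIso G (C * (w + Real.log (t + 2))) ∧ DistortionLE G (C * (w + Real.log (t + 2)))) ∧
    (∀ k w t : ℕ, ∃ K : ℝ, ∀ (V : Type) [Finite V] (G : SimpleGraph V), G.Connected →
      (∀ (W : Type) [Finite W] (H : SimpleGraph W), H.Connected → Conn3 H → IsMinor H G →
        ST.H945.PlaneTw k w t W H ∨ ¬ IsMinor (⊤ : SimpleGraph (Fin 5)) H) →
        EdgeIso G K ∧ DistortionLE G K) ∧
    (∀ w j : ℕ, ∃ K : ℝ, ∀ (V : Type) [Finite V] (G : SimpleGraph V), G.Connected →
      AllOps (fun V G => NearAnySurf w w V G ∨ TreewidthLE G w ∨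
        EdgeSumOf (fun W H => ST.H945.PlaneTw w w w W H ∨
          ¬ IsMinor (⊤ : SimpleGraph (Fin 5)) H) G ∨
        ST.H742.PlaneVortex w V G ∨ DistortionLE G w) w j G → DistortionLE G K) := by
  obtain ⟨K0, hK0⟩ := hK5
  have hR1 : ∀ (V : Type) [Finite V] (G : SimpleGraph V), G.Connected →
      ¬ IsMinor (⊤ : SimpleGraph (Fin 5)) G → DistortionLE G (max K0 1) :=
    fun V _ G hG hno => (hK0 V G hG hno).mono (le_max_left _ _)
  have hR : ∀ (V : Type) [Finite V] (G : SimpleGraph V), G.Connected →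
      ¬ IsMinor (⊤ : SimpleGraph (Fin 5)) G → EdgeIso G (max K0 1) :=
    fun V _ G hG hno => edgeIso_top (le_max_right _ _) hR1 V G hG hno
  obtain ⟨D, hD1, h3, h4⟩ := sums_of
    (R := fun V G => ¬ IsMinor (⊤ : SimpleGraph (Fin 5)) G) (le_max_right K0 1) hR
  set C : ℝ := max (max K0 1) D with hC
  have hCK : max K0 1 ≤ C := le_max_left _ _
  have hCD : D ≤ C := le_max_right _ _
  refine ⟨C, (le_max_right K0 1).trans hCK, ?_, ?_, ?_, ?_⟩
  · intro V _ G hG hno
    exact ⟨ST.H626.EdgeIso.mono' (hR V G hG hno) hCK, (hR1 V G hG hno).mono hCK⟩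
  · intro w t V _ G hG h
    have h' := h3 w t V G hG (sum_of (P := fun W H => ST.H626.PlanePiece w t W H ∨
      ¬ IsMinor (⊤ : SimpleGraph (Fin 5)) H)
      (fun W _ H hW => Or.inl (Or.inr (Or.inl (tw_small H (by omega))))) V G hG h)
    have hlt : (0 : ℝ) ≤ Real.log ((t : ℝ) + 2) :=
      Real.log_nonneg (by have : (0 : ℝ) ≤ t := Nat.cast_nonneg t; linarith)
    have hw : (0 : ℝ) ≤ w := Nat.cast_nonneg w
    have h6 : D * (w + Real.log ((t : ℝ) + 2)) ≤ C * (w + Real.log ((t : ℝ) + 2)) :=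
      mul_le_mul_of_nonneg_right hCD (by linarith)
    exact ⟨ST.H626.EdgeIso.mono' h'.1 h6, h'.2.mono h6⟩
  · intro k w t
    obtain ⟨K, hK⟩ := h4 k w t
    refine ⟨K, fun V _ G hG h => hK V G hG (sum_of (P := fun W H => ST.H945.PlaneTw k w t W H ∨
      ¬ IsMinor (⊤ : SimpleGraph (Fin 5)) H)
      (fun W _ H hW => Or.inl (Or.inr (Or.inr (Or.inl (tw_small H (by omega)))))) V G hG h)⟩
  · intro w j
    obtain ⟨K2, hK2⟩ := H957.tw_bounded w
    obtain ⟨K3, hK3⟩ := h4 w w w
    obtain ⟨K4, hK4⟩ := ST.H742.planar_vortex w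
    refine ST.H645.allOps_any ST.H945.planarC w j (K₂ := max K2 (max K3 (max K4 w)))
      fun V _ G hc hG => ?_
    rcases hG with hG | hG | hG | hG
    · exact (hK2 V G hc hG).mono (le_max_left _ _)
    · exact (hK3 V G hc hG).2.mono ((le_max_left _ _).trans (le_max_right _ _))
    · exact (hK4 V G hc hG).mono
        ((le_max_left _ _).trans ((le_max_right _ _).trans (le_max_right _ _)))
    · exact hG.mono ((le_max_right _ _).trans ((le_max_right _ _).trans (le_max_right _ _)))

end Vale.Agent.P235.H492
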